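import Vale.Agent.P241CL.Mor
import Vale.Agent.P251CX.Sp

/-!
# The stable homotopy category

`IsSH T`: the category `T` is the localization of orthogonal spectra (of compactly generated weak
Hausdorff spaces) at the `π_*`-isomorphisms, its tensor product is the derived smash product and
`T.sus` is the suspension spectrum functor on finite cell spaces.
-/

open CategoryTheory MonoidalCategory

namespace Vale.Agent.P241L

open P251.St P251CX

variable {T : SM}

/-- the associativity -/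
abbrev asc (A B D : T.Sp) : Hm (tn (tn A B) D) (tn A (tn B D)) := (α_ A B D).hom

/-- the symmetry -/
abbrev swp (A B : T.Sp) : Hm (tn A B) (tn B A) := (β_ A B).hom

/-- the square commutes -/
abbrev Sqr {A B C D : T.Sp} (f : Hm A B) (g : Hm A C) (h : Hm B D) (k : Hm C D) : Prop :=
  cm f h = cm g k

/-- `T` is the stable homotopy category with the suspension spectrum functor. -/
structure IsSH (T : SM) where
  /-- the localization functor on objects -/
  L : OSp → T.Sp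
  /-- the localization functor on morphisms -/
  l : ∀ {X Y}, Mor X Y → Hm (L X) (L Y)
  l_id : ∀ X, l (idm X) = idt _
  l_comp : ∀ {X Y Z} (f : Mor X Y) (g : Mor Y Z), l (cmp f g) = cm (l f) (l g)
  loc : (⟨L, l, l_id, l_comp⟩ : OSp ⥤ T.Sp).IsLocalization piIso
  /-- the lax symmetric monoidal structure -/
  mu : ∀ {X Y Z}, Bim X Y Z → Hm (tn (L X) (L Y)) (L Z)
  /-- the comparison of suspension spectra -/
  io : ∀ {A X}, Pm A X 0 → Hm (T.sus A) (L X)
  flat : ∀ X, ∃ Y f, IsFlat Y ∧ piIso Y X f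
  mu_iso : ∀ X Y, ∃ Z, ∃ b : Bim X Y Z, IsUniv b ∧ (IsFlat Y → IsIso (mu b))
  mu_nat : ∀ X Y Z X' Y' Z' (b : Bim X Y Z) (b' : Bim X' Y' Z') f g h, Sq b b' f g h →
    Sqr (mu b) (tm (l f) (l g)) (l h) (mu b')
  /-- the levels `k + m + n` and `k + (m + n)` are the same -/
  mu_assoc : ∀ X Y Z X' Y' Z' (a : Bim X Y X') (b : Bim X' Z Z') (b' : Bim Y Z Y')
    (d : Bim X Y' Z'), (∀ k m n (x : X.sp k) (y : Y.sp m) (z : Z.sp n),
      HEq (b.ev (a.ev x y) z) (d.ev x (b'.ev y z))) →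
    Sqr (tm (mu a) (idt _)) (cm (asc ..) (tm (idt _) (mu b'))) (mu b) (mu d)
  mu_comm : ∀ X Y Z (b : Bim X Y Z) (b' : Bim Y X Z),
    (∀ m n h, (∀ s t, ap h (Fin.append s t) = Fin.append t s) →
      ∀ (x : X.sp m) (y : Y.sp n), Z.ac h (b.ev x y) = b'.ev y x) → mu b = cm (swp ..) (mu b')
  mu_unit : ∀ X Y Z (b : Bim X Y Z) (u : Pm Pn Y 0) (g : Mor X Z),
    (∀ n x, g.app n x = b.ev x (u.fn (.some ()))) →
    Sqr (tm (idt _) (cm T.et (io u))) (cm (swp ..) (lu _)) (mu b) (l g)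
  io_iso : ∀ A, FC A → ∃ X, ∃ u : Pm A X 0, IsFree u ∧ IsFlat X ∧ IsIso (io u)
  io_nat : ∀ A B X Y (u : Pm A X 0) (v : Pm B Y 0) (a : Map A B) (f : Mor X Y), FC A → FC B →
    (∀ x, v.fn (a.toFun x) = f.app 0 (u.fn x)) → Sqr (T.sm a) (io u) (io v) (l f)
  io_mul : ∀ A B X Y Z (u : Pm A X 0) (v : Pm B Y 0) (w : Pm (A.prod B) Z 0) (b : Bim X Y Z),
    FC A → FC B → (∀ x y, w.fn (smash x y) = b.ev (u.fn x) (v.fn y)) →
    Sqr (T.mx A B) (tm (io u) (io v)) (io w) (mu b)

end Vale.Agent.P241L
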