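import Vale.Agent.P241Z.Main
import Vale.Agent.P241CL.St
import Vale.Agent.P251CX.St

/-!
# P241: the definitions of `P241CL/Mor` for an abstract stable homotopy category
-/

open CategoryTheory MonoidalCategory

noncomputable section

namespace Vale.Agent.P241L

open P241Y P241Z
open P251.St (SHCat Susp SuspData Space Map Pn Rn)

/-- the underlying data of a stable homotopy category with a suspension spectrum functor -/
abbrev fg (T : SHCat) (S : SuspData T) : SM where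
  Sp := T.C
  sus := S.obj
  sm := S.map
  sx := S.mul
  su := S.unit

variable {T : SHCat} {S : Susp T}

/-- ring spectra -/
def toA (K : Rg (fg T S.toSuspData)) : RingA T := @RingA.mk T K.ob K.mo

/-- ring spectra, back -/
def ofA (S : Susp T) (K : RingA T) : Rg (fg T S.toSuspData) :=
  @Rg.mk (fg T S.toSuspData) K.obj K.mon

/-- orientations -/
def toO {R : Rg (fg T S.toSuspData)} (o : Orient R) : Oriented S (toA R) where
  θ := o.th
  isom := o.isom
  sum := o.sum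
  fibre := o.fibre

/-- orientations, back -/
def ofO {R : RingA T} (o : Oriented S R) : Orient (ofA S R) where
  th := o.θ
  isom := o.isom
  sum := o.sum
  fibre := o.fibre

theorem pi_zero_iff (Z : T.C) {k : ℤ} {a b : ℕ} (h : k + b = a) :
    (∀ f : S.obj (Rn a) ⟶ Z ⊗ S.obj (Rn b), f = 0) ↔ ∀ f : sphere T k ⟶ Z, f = 0 := by
  let e₁ : S.obj (Rn a) ≅ (sphere T k)⟦(b : ℤ)⟧ :=
    (λ_ _).symm ≪≫ tenSph S a (𝟙_ T.C) ≪≫ (shiftFunctorAdd' T.C k b a h).app _
  let e₂ := tenSph S b Z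
  constructor
  · intro H f
    apply (shiftFunctor T.C (b : ℤ)).map_injective
    rw [Functor.map_zero, ← cancel_epi e₁.hom, ← cancel_mono e₂.inv, Limits.comp_zero,
      Limits.zero_comp]
    exact H _
  · intro H f
    obtain ⟨g, hg⟩ := (shiftFunctor T.C (b : ℤ)).map_surjective (e₁.inv ≫ f ≫ e₂.hom)
    rw [H g, Functor.map_zero] at hg
    rw [← cancel_epi e₁.inv, ← cancel_mono e₂.hom, Category.assoc, ← hg, Limits.comp_zero,
      Limits.zero_comp]

theorem sparse_iff (Z : T.C) (P : ℤ → Prop) :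
    (∀ (a b : ℕ) (f : S.obj (Rn a) ⟶ Z ⊗ S.obj (Rn b)), P (a - b) → f = 0) ↔
      ∀ (k : ℤ) (f : sphere T k ⟶ Z), P k → f = 0 := by
  constructor
  · intro H k f hk
    have e := Int.toNat_sub_toNat_neg k
    exact (pi_zero_iff (S := S) Z (a := k.toNat) (b := (-k).toNat) (by omega)).1
      (fun g => H _ _ g (e.symm ▸ hk)) f
  · intro H a b f hk
    exact (pi_zero_iff (S := S) Z (k := a - b) (by omega)).2 (fun g => H _ g hk) f

theorem perField_iff (K : Rg (fg T S.toSuspData)) (p : ℕ) (d : ℤ) :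
    PerField K p d ↔ IsPeriodicField (toA K) p d :=
  ⟨fun h => ⟨(sparse_iff (S := S) K.ob fun k => ¬ d ∣ k).1 h.sparse, h.char, h.ne, h.gen⟩,
    fun h => ⟨(sparse_iff (S := S) K.ob fun k => ¬ d ∣ k).2 h.sparse, h.char, h.ne, h.gen⟩⟩

theorem rat0_iff (K : Rg (fg T S.toSuspData)) : Rat0 K ↔ IsRational (toA K) :=
  ⟨fun h => ⟨(sparse_iff (S := S) K.ob fun k => k ≠ 0).1
      (fun a b f hk => h.conc a b f (by omega)), h.ne, h.div, h.gen⟩,
    fun h => ⟨fun a b f hk => (sparse_iff (S := S) K.ob fun k => k ≠ 0).2 h.conc a b f (by omega),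
      h.ne, h.div, h.gen⟩⟩

theorem morava_iff (p n : ℕ) (K : Rg (fg T S.toSuspData)) :
    Morava p n K ↔ IsMoravaK S p n (toA K) := by
  unfold Morava IsMoravaK
  split_ifs
  · exact rat0_iff K
  · refine and_congr (perField_iff K p _) ⟨?_, ?_⟩
    · rintro ⟨R, u, o, h1, h2, h3⟩
      exact ⟨toA R, u, toO o, h1, h2, h3⟩
    · rintro ⟨R, u, o, h1, h2, h3⟩
      exact ⟨ofA S R, u, ofO o, h1, h2, h3⟩

variable {p : ℕ} {G : Type} [Group G] [Finite G] (H : Subgroup G)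

theorem geomFix_iff (F : (fg T S.toSuspData).Fn G p) : GeomFix H F ↔ IsGeomFix S H F := by
  constructor
  · rintro ⟨θ, h1, h2⟩
    exact ⟨fun A => θ A _ rfl, fun A => h1 A _ rfl,
      fun X Y a b k f g hg => h2 ⟨X, a, k⟩ ⟨Y, b, k⟩ k rfl rfl f g hg⟩
  · rintro ⟨θ, h1, h2⟩
    refine ⟨fun a k h => h ▸ θ a, ?_, ?_⟩
    · rintro a _ rfl
      exact h1 a
    · rintro ⟨X, a, k⟩ ⟨Y, b, k'⟩ k'' h h' f g hg
      obtain rfl : k = k'' := h
      obtain rfl : k' = k := h'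
      exact h2 X Y a b _ f g hg

/-- the statement on spectra -/
def Concl (T : SM) : Prop := ∀ p : ℕ, p.Prime →
  (∃ K : ℕ → Rg T, ∀ i, Morava p i (K i)) ∧
  ∀ (G : Type) [Group G] [Finite G] (H : Subgroup G),
    (∃ Φ : T.Fn G p, GeomFix H Φ) ∧
    ∀ K : ℕ → Rg T, (∀ i, Morava p i (K i)) → IsPGroup p G →
      ∀ Φ Ψ : T.Fn G p, GeomFix H Φ → GeomFix ⊤ Ψ → ∀ n,
        los Φ Ψ K n = ell H ∧ ∀ r, Force Φ Ψ K n r ↔ ell H ≤ r

theorem concl_fg (S : Susp T) : Concl (fg T S.toSuspData) := by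
  intro p hp
  refine ⟨?_, fun G _ _ H => ⟨?_, fun K hK hG Φ Ψ hΦ hΨ n => ?_⟩⟩
  · obtain ⟨K, hK⟩ := exists_moravaK S hp
    exact ⟨fun i => ofA S (K i), fun i => (morava_iff p i _).2 (hK i)⟩
  · obtain ⟨Φ, hΦ⟩ := exists_isGeomFix S H hp.one_lt.ne'
    exact ⟨Φ, (geomFix_iff H Φ).2 hΦ⟩
  · exact smith hp H (fun i => toA (K i)) (fun i => (morava_iff p i _).1 (hK i)) hG Φ Ψ
      ((geomFix_iff H Φ).1 hΦ) ((geomFix_iff ⊤ Ψ).1 hΨ) n

/-- the stable homotopy category in the sense of `P251CX/St` is one in the sense of `P241CL/St` -/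
def isSH_fg {S : SuspData T} (I : P251CX.IsSH T S) : IsSH (fg T S) where
  L := I.L
  l := I.l
  l_id := I.l_id
  l_comp := I.l_comp
  loc := I.loc
  mu := I.mu
  io := I.io
  flat := I.flat
  mu_iso := I.mu_iso
  mu_nat _ _ _ _ _ _ b b' f g h H := (I.mu_nat _ _ _ _ _ _ b b' f g h H).w
  mu_assoc _ _ _ _ _ _ a b b' d H := (I.mu_assoc _ _ _ _ _ _ a b b' d H).w
  mu_comm := I.mu_comm
  mu_unit _ _ _ b u g H := (I.mu_unit _ _ _ b u g H).w
  io_iso := I.io_iso
  io_nat _ _ _ _ u v a f hA hB H := (I.io_nat _ _ _ _ u v a f hA hB H).w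
  io_mul _ _ _ _ _ u v w b hA hB H := (I.io_mul _ _ _ _ _ u v w b hA hB H).w

end Vale.Agent.P241L
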