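import Vale.Agent.P251CZ.Top

/-!
# P241: from equations of morphisms to equations of bimorphisms
-/

open CategoryTheory MonoidalCategory Limits OnePoint
open Functor.LaxMonoidal Functor.OplaxMonoidal Functor.Monoidal

namespace Vale.Agent.P241L

open Vale.Agent.P251 Vale.Agent.P251.G Vale.Agent.P251.H Vale.Agent.P251.H.StabInput
  Vale.Agent.P251C Vale.Agent.P251CM Vale.Agent.P251CR Vale.Agent.P251CE Vale.Agent.P251CZ
open Vale.Agent.P251CA Vale.Agent.P251CA.CF Vale.Agent.P251CA.Sp0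
open Vale.Agent.P251CJ (eh)
open Vale.Agent.P251.St (Space toLC toHom Pn)

section

variable {Q : OSp ⥤ CF} (d : QD Q) {X Y Z P R W : OSp}

theorem cb_assoc_conv (a : Bim X Y P) (b : Bim P Z W) (c : Bim Y Z R) (b' : Bim X R W)
    (H : d.cb a ▷ Q.obj Z ≫ d.cb b = (α_ _ _ _).hom ≫ Q.obj X ◁ d.cb c ≫ d.cb b')
    (l m n : ℕ) (e : Emb (l + m + n) (l + (m + n))) (he : ∀ r s t,
      ap e (Fin.append (Fin.append r s) t) = Fin.append r (Fin.append s t))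
    (x : X.sp l) (y : Y.sp m) (z : Z.sp n) :
    W.act (.some e) (b.ev (a.ev x y) z) = b'.ev x (c.ev y z) := by
  obtain ⟨e', he'⟩ := ex_assoc' l m n
  obtain ⟨i, hi⟩ := P251CJ.exists_ap_id (l + (m + n))
  have h := congrArg (fun t => fn t (em (em (d.e X l x) (d.e Y m y)) (d.e Z n z))) H
  rw [fn_comp, fn_comp, fn_comp, whiskerRight_em, d.fn_cb, d.fn_cb,
    associator_em (eh (OnePoint.some e')) fun r s t => (app_eh _ _).trans (congrArg vc (he' r s t)),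
    fn_act, fn_act, whiskerLeft_em, d.fn_cb, d.fn_cb, d.act, Equiv.apply_eq_iff_eq] at h
  rw [h, ← W.act_comp _ _ _ e' e i, W.act_id _ i hi]
  intro s
  obtain ⟨r, s, rfl⟩ := ex_append s
  obtain ⟨s, t, rfl⟩ := ex_append s
  rw [he', he]
  exact hi _

theorem cb_comm_conv (b : Bim X Y Z) (c : Bim Y X Z) (H : d.cb b = (β_ _ _).hom ≫ d.cb c)
    (m n : ℕ) (e : Emb (m + n) (n + m)) (he : ∀ s t, ap e (Fin.append s t) = Fin.append t s)
    (x : X.sp m) (y : Y.sp n) : Z.act (.some e) (b.ev x y) = c.ev y x := by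
  obtain ⟨e', he'⟩ := ex_swap n m
  obtain ⟨i, hi⟩ := P251CJ.exists_ap_id (n + m)
  have h := congrArg (fun t => fn t (em (d.e X m x) (d.e Y n y))) H
  rw [fn_comp, d.fn_cb,
    braiding_em (eh (OnePoint.some e')) fun s t => (app_eh _ _).trans (congrArg vc (he' t s)),
    fn_act, d.fn_cb, d.act, Equiv.apply_eq_iff_eq] at h
  rw [h, ← Z.act_comp _ _ _ e' e i, Z.act_id _ i hi]
  intro s
  obtain ⟨s, t, rfl⟩ := ex_append s
  rw [he', he]
  exact hi _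

end

theorem tq_assoc_conv.{v} {C D : Type*} [Category.{v} C] [MonoidalCategory C] [BraidedCategory C]
    [Category.{v} D] [MonoidalCategory D] [BraidedCategory D] {r : C ⥤ D} {q : D ⥤ C} (adj : r ⊣ q)
    [r.Braided] [q.Full] [q.Faithful] {X Y Z P Q W : D}
    (a : X ⊗ Y ⟶ P) (b : P ⊗ Z ⟶ W) (c : Y ⊗ Z ⟶ Q) (d : X ⊗ Q ⟶ W)
    (h : a ▷ Z ≫ b = (α_ _ _ _).hom ≫ X ◁ c ≫ d) :
    tq adj a ▷ q.obj Z ≫ tq adj b = (α_ _ _ _).hom ≫ q.obj X ◁ tq adj c ≫ tq adj d := by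
  let _ := adj.rightAdjointLaxMonoidal
  rw [tq_eq adj a, comp_whiskerRight_assoc, ← tq_right, h, tq_eq adj (_ ≫ _), q.map_comp,
    tq_eq adj c, MonoidalCategory.whiskerLeft_comp_assoc, ← tq_left, tq_eq]
  exact associativity_assoc q X Y Z _

variable (R : Rfl CF OSp) (d : QD R.q)

/-- an object as an orthogonal spectrum -/
def ob (X : RM R) : OSp := X

variable {R} {X Y Z X' Y' Z' P Q W : RM R} {K K' : Space}

/-- a morphism as a morphism of orthogonal spectra -/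
def hm (f : X ⟶ Y) : ob R X ⟶ ob R Y := f

/-- the bimorphism of a morphism -/
noncomputable def bb (t : X ⊗ Y ⟶ Z) : Bim (ob R X) (ob R Y) (ob R Z) := (tbR R d).symm t

theorem tb_bb (t : X ⊗ Y ⟶ Z) : (br R d).tb (bb d t) = t := Equiv.apply_symm_apply _ _

theorem cb_bb (t : X ⊗ Y ⟶ Z) : d.cb (bb d t) = tq (RM.adj R) t :=
  (tq_tbR R d _).symm.trans (congrArg _ (tb_bb d t))

/-- the based map of a morphism -/
noncomputable def pp (s : (J (RM R)).obj (toLC K) ⟶ X) : Pm K (ob R X) 0 := (tpR R d).symm s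

theorem tp_pp (s : (J (RM R)).obj (toLC K) ⟶ X) : (br R d).tp (pp d s) = s :=
  Equiv.apply_symm_apply _ _

theorem cp_pp (s : (J (RM R)).obj (toLC K) ⟶ X) :
    d.cp (pp d s) = (RM.adj R).homEquiv ((J CF).obj (toLC K)) X s :=
  (homEquiv_tpR R d _).symm.trans (congrArg _ (tp_pp d s))

theorem bb_nat (t : X ⊗ Y ⟶ Z) (t' : X' ⊗ Y' ⟶ Z') (f : X ⟶ X') (g : Y ⟶ Y') (h : Z ⟶ Z')
    (H : t ≫ h = (f ⊗ₘ g) ≫ t') (m n : ℕ) (x : (ob R X).sp m) (y : (ob R Y).sp n) :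
    (hm h).app _ ((bb d t).ev x y) = (bb d t').ev ((hm f).app m x) ((hm g).app n y) :=
  ((br R d).tb_nat (bb d t) (bb d t') (hm f) (hm g) (hm h)).2 (by
    rw [tb_bb, tb_bb]
    exact H) m n x y

theorem bb_assoc (a : X ⊗ Y ⟶ P) (b : P ⊗ Z ⟶ W) (c : Y ⊗ Z ⟶ Q) (b' : X ⊗ Q ⟶ W)
    (H : a ▷ Z ≫ b = (α_ _ _ _).hom ≫ X ◁ c ≫ b')
    (l m n : ℕ) (e : Emb (l + m + n) (l + (m + n))) (he : ∀ r s t,
      ap e (Fin.append (Fin.append r s) t) = Fin.append r (Fin.append s t))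
    (x : (ob R X).sp l) (y : (ob R Y).sp m) (z : (ob R Z).sp n) :
    (ob R W).act (.some e) ((bb d b).ev ((bb d a).ev x y) z) =
      (bb d b').ev x ((bb d c).ev y z) :=
  cb_assoc_conv d _ _ _ _ (by
    rw [cb_bb, cb_bb, cb_bb, cb_bb]
    exact tq_assoc_conv (RM.adj R) a b c b' H) l m n e he x y z

theorem bb_comm (b : X ⊗ Y ⟶ Z) (c : Y ⊗ X ⟶ Z) (H : b = (β_ _ _).hom ≫ c)
    (m n : ℕ) (e : Emb (m + n) (n + m)) (he : ∀ s t, ap e (Fin.append s t) = Fin.append t s)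
    (x : (ob R X).sp m) (y : (ob R Y).sp n) :
    (ob R Z).act (.some e) ((bb d b).ev x y) = (bb d c).ev y x :=
  cb_comm_conv d _ _ (by
    rw [cb_bb, cb_bb, H]
    exact tq_comm (RM.adj R) c) m n e he x y

theorem bb_unit (b : X ⊗ Y ⟶ Z) (u : (J (RM R)).obj (toLC Pn) ⟶ Y) (g : X ⟶ Z)
    (H : X ◁ (ε (J (RM R)) ≫ u) ≫ b = (ρ_ _).hom ≫ g) (n : ℕ) (x : (ob R X).sp n) :
    (hm g).app n x = (bb d b).ev x ((pp d u).1 (.some ())) :=
  ((br R d).tb_unit (bb d b) (pp d u) (hm g)).2 (by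
    rw [tb_bb, tp_pp]
    exact H) n x

theorem pp_nat (u : (J (RM R)).obj (toLC K) ⟶ X) (u' : (J (RM R)).obj (toLC K') ⟶ X')
    (a : St.Map K K') (f : X ⟶ X') (H : (J (RM R)).map (toHom a) ≫ u' = u ≫ f) (k : K.Pt) :
    (pp d u').1 (a.toFun k) = (hm f).app 0 ((pp d u).1 k) :=
  ((br R d).tp_nat (pp d u) (pp d u') a (hm f)).2 (by
    rw [tp_pp, tp_pp]
    exact H) k

theorem pp_mul (u : (J (RM R)).obj (toLC K) ⟶ X) (v : (J (RM R)).obj (toLC K') ⟶ Y)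
    (w : (J (RM R)).obj (toLC (K.prod K')) ⟶ Z) (b : X ⊗ Y ⟶ Z)
    (H : μ (J (RM R)) (toLC K) (toLC K') ≫ w = (u ⊗ₘ v) ≫ b) (k : K.Pt) (k' : K'.Pt) :
    (pp d w).1 (St.smash k k') = (bb d b).ev ((pp d u).1 k) ((pp d v).1 k') := by
  refine (d.cb_mul (pp d u) (pp d v) (pp d w) (bb d b)).2 ?_ k k'
  rw [cp_pp, cp_pp, cp_pp, cb_bb]
  have h : (μ (RM.r R) ((J CF).obj (toLC K)) ((J CF).obj (toLC K')) ≫
      (RM.r R).map (μ (J CF) (toLC K) (toLC K'))) ≫ w = (u ⊗ₘ v) ≫ b := H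
  refine Eq.trans ?_ (tq_mul (RM.adj R) (A := (J CF).obj (toLC K)) (B := (J CF).obj (toLC K')) u v b)
  refine ((RM.adj R).homEquiv_naturality_left _ _).symm.trans (congrArg _ ?_)
  refine Eq.trans ?_ (congrArg (δ (RM.r R) _ _ ≫ ·) h)
  rw [Category.assoc]
  exact (δ_μ_assoc (RM.r R) ((J CF).obj (toLC K)) ((J CF).obj (toLC K')) _).symm

theorem bb_univ (t : X ⊗ Y ⟶ Z) [IsIso t] : IsUniv (bb d t) :=
  ((br R d).isUniv_iff _).2 (by
    rw [tb_bb]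
    assumption)

theorem pp_free (s : (J (RM R)).obj (toLC K) ⟶ X) [IsIso s] : IsFree (pp d s) :=
  ((br R d).isFree_iff _).2 (by
    rw [tp_pp]
    assumption)

include d in
theorem ob_flat (h : Flat (WW (RM R)) Y) : IsFlat (ob R Y) := ((br R d).isFlat_iff _).2 h

include d in
theorem hm_pi (f : X ⟶ Y) : piIso (hm f) ↔ WW (RM R) f := (br R d).pi (hm f)

end Vale.Agent.P241L
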