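import Vale.Agent.P241CL.Tr
import Vale.Agent.P241CL.Br
import Vale.Agent.P251CM.All
import Mathlib.CategoryTheory.Localization.Monoidal.Functor

/-!
# P241: a monoidal localization of a `StabInput` category is a stable homotopy category
-/

open CategoryTheory MonoidalCategory Limits Pretriangulated
open Functor.LaxMonoidal Functor.OplaxMonoidal Functor.Monoidal

set_option linter.unusedSectionVars false

noncomputable section

namespace Vale.Agent.P241L

open Vale.Agent.P251 Vale.Agent.P251.G Vale.Agent.P251.H Vale.Agent.P251.H.StabInput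
  Vale.Agent.P251CM Vale.Agent.P251CL
open Vale.Agent.P251.St (SHCat Susp SuspData Space FC toLC toHom Pn Rr fcPn fcRr fc_prod)

/-- a functor out of a braided localization which lifts a braided functor is braided -/
theorem exists_braided {C D E : Type*} [Category* C] [Category* D] [Category* E]
    [MonoidalCategory C] [MonoidalCategory D] [MonoidalCategory E] [BraidedCategory C]
    [BraidedCategory D] [BraidedCategory E] (L : C ⥤ D) (W : MorphismProperty C)
    [L.IsLocalization W] [L.Braided] [W.ContainsIdentities] (F : D ⥤ E) (G : C ⥤ E) [G.Braided]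
    (i : L ⋙ F ≅ G) : ∃ _ : F.Braided, i.hom.IsMonoidal := by
  let _ : Localization.Lifting L W G F := ⟨i⟩
  let _ := Localization.Monoidal.functorMonoidalOfComp L W F G
  have hi : i.hom.IsMonoidal := Localization.Monoidal.lifting_isMonoidal L W F G
  have := Localization.essSurj L W
  refine ⟨{ braided := fun X' Y' => ?_ }, hi⟩
  have key : ∀ X Y : C, μ F (L.obj X) (L.obj Y) ≫ F.map (β_ (L.obj X) (L.obj Y)).hom =
      (β_ _ _).hom ≫ μ F (L.obj Y) (L.obj X) := fun X Y => by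
    have h1 : ∀ X Y : C, μ F (L.obj X) (L.obj Y) ≫ F.map (μ L X Y) ≫ i.hom.app (X ⊗ Y) =
        (i.hom.app X ⊗ₘ i.hom.app Y) ≫ μ G X Y := fun X Y =>
      (Category.assoc _ _ _).symm.trans (hi.tensor X Y)
    have h2 : F.map (L.map (β_ X Y).hom) ≫ i.hom.app (Y ⊗ X) =
        i.hom.app (X ⊗ Y) ≫ G.map (β_ X Y).hom := i.hom.naturality _
    rw [← cancel_mono (F.map (μ L Y X) ≫ i.hom.app (Y ⊗ X)), Category.assoc, Category.assoc, h1,
      ← F.map_comp_assoc, ← Functor.Braided.braided, F.map_comp_assoc, h2, reassoc_of% h1,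
      Functor.Braided.braided, BraidedCategory.braiding_naturality_assoc]
  let a := L.objObjPreimageIso X'
  let b := L.objObjPreimageIso Y'
  rw [← cancel_epi (F.map a.hom ⊗ₘ F.map b.hom), μ_natural_assoc, ← F.map_comp,
    BraidedCategory.braiding_naturality, F.map_comp, reassoc_of% key,
    BraidedCategory.braiding_naturality_assoc, μ_natural]

variable (M : Type 1) [Category.{0} M] [MonoidalCategory M] [SymmetricCategory M]
    [MonoidalClosed M] [HasZeroMorphisms M] [HasColimitsOfSize.{0, 0} M] [StabInput M]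

/-- `T` is the localization of `M`, through a lax symmetric monoidal functor which is compatible
with suspension spectra -/
structure GenL (T : SM) where
  /-- the localization functor -/
  L : M ⥤ T.Sp
  loc : L.IsLocalization (WW M)
  /-- the lax symmetric monoidal structure -/
  mu : ∀ X Y : M, L.obj X ⊗ L.obj Y ⟶ L.obj (X ⊗ Y)
  /-- the comparison of suspension spectra -/
  io : ∀ K : Space, T.sus K ⟶ L.obj ((J M).obj (toLC K))
  mu_iso : ∀ X Y : M, Flat (WW M) Y → IsIso (mu X Y)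
  mu_nat : ∀ {X Y X' Y' : M} (f : X ⟶ X') (g : Y ⟶ Y'),
    mu X Y ≫ L.map (f ⊗ₘ g) = (L.map f ⊗ₘ L.map g) ≫ mu X' Y'
  mu_assoc : ∀ X Y Z : M, mu X Y ▷ L.obj Z ≫ mu (X ⊗ Y) Z ≫ L.map (α_ X Y Z).hom =
    (α_ _ _ _).hom ≫ L.obj X ◁ mu Y Z ≫ mu X (Y ⊗ Z)
  mu_comm : ∀ X Y : M, mu X Y ≫ L.map (β_ X Y).hom = (β_ _ _).hom ≫ mu Y X
  mu_unit : ∀ X : M, L.obj X ◁ (T.su ≫ io Pn) ≫ mu X ((J M).obj (toLC Pn)) =
    (ρ_ _).hom ≫ L.map ((ρ_ X).inv ≫ X ◁ ε (J M))
  io_iso : ∀ {K : Space}, FC K → IsIso (io K)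
  io_nat : ∀ {K K' : Space} (a : St.Map K K'), FC K → FC K' →
    T.sm a ≫ io K' = io K ≫ L.map ((J M).map (toHom a))
  io_mul : ∀ {K K' : Space}, FC K → FC K' →
    T.sx K K' ≫ io (K.prod K') = (io K ⊗ₘ io K') ≫ mu _ _ ≫ L.map (μ (J M) (toLC K) (toLC K'))

variable {M} {T : SM} (G : GenL M T)

namespace GenL

theorem mu_left {X X' : M} (f : X ⟶ X') (Y : M) :
    G.L.map f ▷ G.L.obj Y ≫ G.mu X' Y = G.mu X Y ≫ G.L.map (f ▷ Y) := by
  rw [← tensorHom_id f, G.mu_nat, G.L.map_id, tensorHom_id]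

theorem mu_right (X : M) {Y Y' : M} (f : Y ⟶ Y') :
    G.L.obj X ◁ G.L.map f ≫ G.mu X Y' = G.mu X Y ≫ G.L.map (X ◁ f) := by
  rw [← id_tensorHom X f, G.mu_nat, G.L.map_id, id_tensorHom]

/-- the inverse of the unit of `J` -/
def et : (J M).obj (toLC Pn) ⟶ 𝟙_ M := η (J M)

/-- the unit of `J` -/
def et' : 𝟙_ M ⟶ (J M).obj (toLC Pn) := ε (J M)

theorem et'_et : (et' : 𝟙_ M ⟶ _) ≫ et = 𝟙 _ := ε_η (J M)

theorem et_et' : (et : _ ⟶ 𝟙_ M) ≫ et' = 𝟙 _ := η_ε (J M)

/-- the unit -/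
def ep : 𝟙_ T.Sp ⟶ G.L.obj (𝟙_ M) := (T.su ≫ G.io Pn) ≫ G.L.map et

theorem right_unit (X : M) :
    (ρ_ (G.L.obj X)).hom = G.L.obj X ◁ G.ep ≫ G.mu X (𝟙_ M) ≫ G.L.map (ρ_ X).hom := by
  have h : G.L.obj X ◁ (T.su ≫ G.io Pn) ≫ G.mu X ((J M).obj (toLC Pn)) =
    (ρ_ _).hom ≫ G.L.map ((ρ_ X).inv ≫ X ◁ et') := G.mu_unit X
  rw [ep, MonoidalCategory.whiskerLeft_comp, Category.assoc, reassoc_of% G.mu_right,
    reassoc_of% h, ← G.L.map_comp, ← G.L.map_comp, Category.assoc,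
    ← MonoidalCategory.whiskerLeft_comp_assoc, et'_et]
  simp

theorem left_unit (X : M) :
    (λ_ (G.L.obj X)).hom = G.ep ▷ G.L.obj X ≫ G.mu (𝟙_ M) X ≫ G.L.map (λ_ X).hom := by
  rw [← braiding_rightUnitor, ← braiding_rightUnitor, G.L.map_comp, reassoc_of% G.mu_comm,
    BraidedCategory.braiding_naturality_left_assoc, ← G.right_unit]

instance : IsIso G.ep := by
  have := G.loc
  have := Localization.essSurj G.L (WW M)
  let a := G.L.objObjPreimageIso (𝟙_ T.Sp)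
  have := G.mu_iso (G.L.objPreimage (𝟙_ T.Sp)) _ (flatInput (WW M)).flat_unit
  have h1 : IsIso (G.L.obj (G.L.objPreimage (𝟙_ T.Sp)) ◁ G.ep ≫ G.mu _ (𝟙_ M) ≫
      G.L.map (ρ_ _).hom) := G.right_unit _ ▸ inferInstance
  have h2 := IsIso.of_isIso_comp_right (G.L.obj (G.L.objPreimage (𝟙_ T.Sp)) ◁ G.ep)
    (G.mu _ (𝟙_ M) ≫ G.L.map (ρ_ _).hom)
  have h3 : G.ep = (λ_ _).inv ≫ a.inv ▷ _ ≫ _ ◁ G.ep ≫ a.hom ▷ _ ≫ (λ_ _).hom := by
    rw [whisker_exchange_assoc, ← comp_whiskerRight_assoc, a.inv_hom_id, id_whiskerRight,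
      Category.id_comp, leftUnitor_naturality, Iso.inv_hom_id_assoc]
  rw [h3]
  infer_instance

/-- the localization of the flat objects -/
def L₀ : FlatCat (WW M) ⥤ T.Sp := (Flat (WW M)).ι ⋙ G.L

instance : G.L₀.IsLocalization (CofCat.W (C := FlatCat (WW M))) := by
  obtain ⟨Q, q, hQ, hq⟩ := P251CB.exists_flat_repl M
  have := G.loc
  have := twoOutOfThree (WW M)
  exact isLocalization_transfer _ (WW M) (Flat (WW M)).ι (fun _ => Iff.rfl) (liftQ (WW M) Q hQ)
    (replNat (Flat (WW M)) (liftQ (WW M) Q hQ) (liftq (WW M) Q hQ q)) (fun X => hq X.obj) Q q hq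
    (𝟙 Q) (fun Y => (WW M).id_mem _) G.L

/-- the monoidal structure -/
def core : G.L₀.CoreMonoidal where
  εIso := (asIso G.ep :)
  μIso X Y := have := G.mu_iso X.obj Y.obj Y.property; (asIso (G.mu X.obj Y.obj) :)
  μIso_hom_natural_left f Y := G.mu_left f.hom Y.obj
  μIso_hom_natural_right X f := G.mu_right X.obj f.hom
  associativity X Y Z := G.mu_assoc X.obj Y.obj Z.obj
  left_unitality X := G.left_unit X.obj
  right_unitality X := G.right_unit X.obj

instance : G.L₀.Braided where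
  toMonoidal := G.core.toMonoidal
  braided X Y := G.mu_comm X.obj Y.obj

/-- the monoidal structure of `T` on the stable homotopy category of `M` -/
def alt : Alt (shOf G.L₀) := ⟨T.mn, T.sy⟩

/-- the localization functor -/
def L₁ : FlatCat (WW M) ⥤ G.alt.C := G.L₀

instance : G.L₁.Braided := inferInstanceAs G.L₀.Braided

instance : G.L₁.IsLocalization (CofCat.W (C := FlatCat (WW M))) :=
  inferInstanceAs (G.L₀.IsLocalization (CofCat.W (C := FlatCat (WW M))))

/-- the comparison -/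
def i₁ : G.L₁ ⋙ G.alt.J ≅ LF G.L₀ := G.L₀.rightUnitor

/-- the localization functor -/
def L₂ [G.alt.J.Braided] : FlatCat (WW M) ⥤ G.alt.sh.C := G.L₁

instance [G.alt.J.Braided] : G.L₂.Braided := inferInstanceAs G.L₁.Braided

theorem ex_braided : ∃ _ : G.alt.J.Braided, G.i₁.hom.IsMonoidal :=
  exists_braided G.L₁ (CofCat.W (C := FlatCat (WW M))) _ _ _

end GenL

section cmp

variable {D₀ : Type 1} [Category.{0} D₀] {L₀ : FlatCat (WW M) ⥤ D₀}
  [L₀.IsLocalization (CofCat.W (C := FlatCat (WW M)))] {T1 : SHCat}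
  (F : T1.C ⥤ (shOf L₀).C) [F.Braided] [F.Full] [F.Faithful] [F.Additive]
  [F.CommShift ℤ] [F.IsTriangulated] (L : FlatCat (WW M) ⥤ T1.C) [L.Braided]
  (i : L ⋙ F ≅ LF L₀) (ob : Space → T1.C) (io : ∀ {K} (h : FC K), ob K ≅ L.obj (flJ h))

/-- the comparison isomorphisms -/
def phi {K : Space} (h : FC K) : F.obj (ob K) ≅ (suspOf L₀).obj K :=
  F.mapIso (io h) ≪≫ i.app (flJ h) ≪≫ (P251CM.eS L₀ h).symm

theorem phi_eS {K : Space} (h : FC K) : (phi F L i ob io h).hom ≫ (P251CM.eS L₀ h).hom =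
    F.map (io h).hom ≫ i.hom.app (flJ h) := by
  simp [phi]

theorem exists_susp (hi : i.hom.IsMonoidal)
    (he : ∀ Y : T1.C, (P251.T.TensorTriangulated.e Y).hom = (eS F Y).hom)
    (mp : ∀ {X Y}, St.Map X Y → (ob X ⟶ ob Y)) (ml : ∀ X Y, ob X ⊗ ob Y ⟶ ob (X.prod Y))
    (un : 𝟙_ T1.C ⟶ ob Pn)
    (h1 : ∀ {X Y} (hX : FC X) (hY : FC Y) (f : St.Map X Y),
      mp f ≫ (io hY).hom = (io hX).hom ≫ L.map (flMap hX hY f))
    (h2 : ∀ {X Y} (hX : FC X) (hY : FC Y), ml X Y ≫ (io (fc_prod hX hY)).hom =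
      ((io hX).hom ⊗ₘ (io hY).hom) ≫ μ L _ _ ≫ L.map (flMul hX hY))
    (h3 : un ≫ (io fcPn).hom = ε L ≫ L.map flUnit) :
    ∃ (l : ob Rr ⟶ (𝟙_ T1.C)⟦(1 : ℤ)⟧) (S : Susp T1), S.toSuspData = ⟨ob, mp, ml, un, l⟩ := by
  have nat : ∀ {A B : FlatCat (WW M)} (f : A ⟶ B),
      F.map (L.map f) ≫ i.hom.app B = i.hom.app A ≫ (LF L₀).map f := fun f => i.hom.naturality f
  refine ⟨F.preimage ((phi F L i ob io fcRr).hom ≫ (suspOf L₀).line ≫ (sS F).inv),
    Cmp.susp (J := F) (S0 := suspOf L₀) ⟨phi F L i ob io, he, fun hX hY f => ?_, fun hX hY => ?_,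
      ?_, ?_⟩, rfl⟩
  · rw [← cancel_mono (P251CM.eS L₀ hY).hom, Category.assoc, Category.assoc, P251CM.map_eS L₀ hX hY,
      phi_eS, reassoc_of% phi_eS, ← F.map_comp_assoc, h1 hX hY, F.map_comp_assoc, nat]
  · have ht : μ F _ _ ≫ F.map (μ L (flJ hX) (flJ hY)) ≫ i.hom.app _ =
        (i.hom.app _ ⊗ₘ i.hom.app _) ≫ μ (LF L₀) _ _ :=
      (Category.assoc _ _ _).symm.trans (hi.tensor (flJ hX) (flJ hY))
    rw [← cancel_mono (P251CM.eS L₀ (fc_prod hX hY)).hom, Category.assoc, Category.assoc,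
      Category.assoc, mul_eS L₀ hX hY, phi_eS, tensorHom_comp_tensorHom_assoc, phi_eS, phi_eS,
      ← F.map_comp_assoc, h2 hX hY, F.map_comp_assoc, F.map_comp_assoc, nat,
      ← tensorHom_comp_tensorHom_assoc, ← reassoc_of% ht, δ_natural_assoc, δ_μ_assoc]
  · have ht : ε F ≫ F.map (ε L) ≫ i.hom.app _ = ε (LF L₀) :=
      (Category.assoc _ _ _).symm.trans hi.unit
    rw [← cancel_mono (P251CM.eS L₀ fcPn).hom, Category.assoc, Category.assoc, unit_eS, phi_eS,
      ← F.map_comp_assoc, h3, F.map_comp_assoc, nat, ← reassoc_of% ht, η_ε_assoc]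
  · simp

end cmp

/-- the same data with another additive structure -/
def SM.withAd (T : SM) (a : Preadditive T.Sp) : SM := { T with ad := a }

theorem SM.withAd_eq (T : SM) [Subsingleton (Preadditive T.Sp)] (a : Preadditive T.Sp) :
    T.withAd a = T := by
  obtain rfl : a = T.ad := Subsingleton.elim _ _
  rfl

include G in
theorem GenL.exists_heavy : ∃ (T1 : SHCat) (S : Susp T1), fg T1 S.toSuspData = T := by
  obtain ⟨b, hb⟩ := G.ex_braided
  obtain ⟨l, S, hS⟩ := exists_susp G.alt.J' G.L₂ G.i₁ T.sus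
    (fun {K} h => have := G.io_iso h; (asIso (G.io K) :)) hb G.alt.he T.sm T.sx T.su
    (fun hX hY f => G.io_nat f hX hY) (fun hX hY => G.io_mul hX hY) (by
      change T.su ≫ G.io Pn = ((T.su ≫ G.io Pn) ≫ G.L.map GenL.et) ≫ G.L.map GenL.et'
      rw [Category.assoc, ← G.L.map_comp, GenL.et_et', G.L.map_id, Category.comp_id])
  refine ⟨G.alt.sh, S, ?_⟩
  rw [hS]
  have : HasCoproducts.{0} T.Sp := (shOf G.L₀).coproducts
  have : HasBinaryCoproducts T.Sp := hasColimitsOfShape_discrete T.Sp WalkingPair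
  have : HasBinaryBiproducts T.Sp := HasBinaryBiproducts.of_hasBinaryCoproducts
  exact T.withAd_eq (shOf G.L₀).preadditive

end Vale.Agent.P241L
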