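import Vale.Agent.P241Z.St

/-!
# P241 in the stable homotopy category: Morava `K`-theories and geometric fixed points

The definitions of `P241Z/St.lean` which involve spectra, for a symmetric monoidal preadditive
category with the data of a suspension spectrum functor.
-/

open CategoryTheory MonoidalCategory Matrix

noncomputable section

namespace Vale.Agent.P241L

open P241Y P241Z
open P251.St (Space Map Pn Rn)

/-- A symmetric monoidal preadditive category with the data of a functor `X ↦ Σ^∞ X⁺`. -/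
structure SM where
  /-- the objects (spectra) -/
  Sp : Type 1
  [ca : Category.{0} Sp]
  [ad : Preadditive Sp]
  [mn : MonoidalCategory Sp]
  [sy : SymmetricCategory Sp]
  /-- the suspension spectrum of `X⁺` -/
  sus : Space → Sp
  /-- functoriality -/
  sm : ∀ {X Y}, Map X Y → (sus X ⟶ sus Y)
  /-- the map `Σ^∞ X⁺ ⊗ Σ^∞ Y⁺ ⟶ Σ^∞ (X⁺ ∧ Y⁺)` -/
  sx : ∀ X Y, sus X ⊗ sus Y ⟶ sus (X.prod Y)
  /-- the map from the unit to `Σ^∞` of the point -/
  su : 𝟙_ Sp ⟶ sus Pn

attribute [instance] SM.ca SM.ad SM.mn SM.sy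

variable {T : SM}

/-- morphisms -/
abbrev Hm (A B : T.Sp) : Type := A ⟶ B

/-- the unit (the sphere spectrum) -/
abbrev SM.un (T : SM) : T.Sp := 𝟙_ T.Sp

/-- the tensor product (smash product of spectra) -/
abbrev tn (A B : T.Sp) : T.Sp := A ⊗ B

variable {A B C D : T.Sp}

/-- the identity -/
abbrev idt (A : T.Sp) : Hm A A := 𝟙 A

/-- the composition, in diagrammatic order -/
abbrev cm (f : Hm A B) (g : Hm B C) : Hm A C := f ≫ g

/-- the tensor product of two morphisms -/
abbrev tm (f : Hm A B) (g : Hm C D) : Hm (tn A C) (tn B D) := f ⊗ₘ g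

/-- the left unit -/
abbrev lu (A : T.Sp) : Hm (tn T.un A) A := (λ_ A).hom

/-- the interchange `(A ⊗ B) ⊗ (C ⊗ D) ⟶ (A ⊗ C) ⊗ (B ⊗ D)` -/
abbrev ex (A B C D : T.Sp) : Hm (tn (tn A B) (tn C D)) (tn (tn A C) (tn B D)) := tensorμ A B C D

/-- the multiple `a f` of a morphism by an integer -/
abbrev zm (a : ℤ) (f : Hm A B) : Hm A B := a • f

/-- `f` is zero -/
abbrev Nul (f : Hm A B) : Prop := f = 0

/-- the map `T.sx` -/
abbrev SM.mx (T : SM) (X Y) : Hm (tn (T.sus X) (T.sus Y)) (T.sus (X.prod Y)) := T.sx X Y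

/-- the map `T.su` -/
abbrev SM.et (T : SM) : Hm T.un (T.sus Pn) := T.su

/-- A homotopy associative ring spectrum. -/
structure Rg (T : SM) where
  /-- the underlying spectrum -/
  ob : T.Sp
  [mo : MonObj ob]

attribute [instance] Rg.mo

variable (R K : Rg T)

/-- the multiplication -/
abbrev Rg.mu : Hm (tn K.ob K.ob) K.ob := MonObj.mul

/-- the homotopy group `π_0 K` -/
abbrev Rg.pz : Type := Hm T.un K.ob

/-- the unit -/
abbrev Rg.eta : K.pz := MonObj.one

/-- the homotopy group `π_{a - b} K` -/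
abbrev Rg.pi (a b : ℕ) : Type := Hm (T.sus (Rn a)) (tn K.ob (T.sus (Rn b)))

/-- `π_k K = 0` unless `d` divides `k`, and `π_0 K = 𝔽_p`. -/
structure PerField (p : ℕ) (d : ℤ) : Prop where
  sparse : ∀ (a b : ℕ) (f : K.pi a b), ¬ d ∣ a - b → Nul f
  char : Nul (zm p K.eta)
  ne : ¬ Nul K.eta
  gen : ∀ f : K.pz, ∃ a, f = zm a K.eta

/-- `K` is the rational Eilenberg-Mac Lane spectrum: `π_* K = ℚ` in degree `0`. -/
structure Rat0 : Prop where
  conc : ∀ a b (f : K.pi a b), a ≠ b → Nul f
  ne : ¬ Nul K.eta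
  div : ∀ m ≠ 0, Function.Bijective fun f : K.pz => zm m f
  gen : ∀ f : K.pz, ∃ a m, m ≠ 0 ∧ zm m f = zm a K.eta

/-- the sphere of dimension `2 n` -/
abbrev SM.es (T : SM) (n : ℕ) : T.Sp := T.sus (Cn n)

/-- the suspension `Σ^{2n} K` -/
abbrev Rg.sh (n : ℕ) : T.Sp := tn K.ob (T.es n)

/-- The cohomology group `K^{2n}(X⁺)`. -/
abbrev Rg.co (n : ℕ) (X : Space) : Type := Hm (T.sus X) (K.sh n)

variable {R K} {n m l : ℕ} {X Y : Space}

/-- the pullback of a cohomology class -/
abbrev pull (f : Map X Y) (c : K.co n Y) : K.co n X := cm (T.sm f) c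

/-- the image of a cohomology class under a map of ring spectra -/
abbrev fwd (u : Hm R.ob K.ob) (x : R.co n X) : K.co n X := cm x (tm u (idt _))

/-- the product `Σ^{2n} K ⊗ Σ^{2m} K ⟶ Σ^{2l} K` given by a map `g` of spheres -/
abbrev prd (g : Map ((Cn n).prod (Cn m)) (Cn l)) : Hm (tn (K.sh n) (K.sh m)) (K.sh l) :=
  cm (ex ..) (tm K.mu (cm (T.mx ..) (T.sm g)))

/-- `z ∈ K^{2(n+m)}(X⁺ ∧ Y⁺)` is the external product of `x ∈ K^{2n}(X⁺)` and `y ∈ K^{2m}(Y⁺)`. -/
def Cross (x : K.co n X) (y : K.co m Y) (z : K.co (n + m) (X.prod Y)) : Prop :=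
  ∀ g : Map _ (Cn (n + m)), (∀ a b, g.toFun (.some (a, b)) = .some (Fin.append a b)) →
    cm (T.mx X Y) z = cm (tm x y) (prd g)

/-- the projection of a point of the tautological bundle -/
abbrev mat {I} [Fintype I] (x : (Th n I).carrier) : Matrix I I ℂ := x.1.1

/-- the vector of a point of the tautological bundle -/
abbrev vec {I} [Fintype I] (x : (Th n I).carrier) : I → ℂ := x.1.2

/-- A complex orientation of the ring spectrum `R`: a multiplicative family of Thom classes
`th n I ∈ R^{2n}(Th n I)` of the tautological bundles, compatible with isometries and direct sums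
and normalised on the fibre `ℂ^n`. -/
structure Orient (R : Rg T) where
  /-- the Thom classes -/
  th (n I) [Fintype I] : R.co n (Th n I)
  isom : ∀ {n I J} [Fintype I] [Fintype J] [DecidableEq I] (u : Matrix J I ℂ) f, uᴴ * u = 1 →
    IsPair (fun x => u * mat x * uᴴ) (fun x => u *ᵥ vec x) f → pull f (th n J) = th n I
  sum : ∀ {n m I J} [Fintype I] [Fintype J] f, IsPair (X := (Th n I).prod (Th m J))
    (fun x => fromBlocks (mat x.1) 0 0 (mat x.2)) (fun x => Sum.elim (vec x.1) (vec x.2)) f →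
    Cross (th n I) (th m J) (pull f (th (n + m) (I ⊕ J)))
  fibre : ∀ n (f : Map (Cn n) _), IsPair (fun _ => 1) (fun x => x) f →
    cm (lu _) (pull f (th n (Fin n))) = tm R.eta (idt _)

/-- `f` is the zero section `x ↦ (P x, 0)` of a bundle over the projective space of `ℂ^I`. -/
def IsSec {I J} [Fintype I] [Fintype J] (P : Matrix I I ℂ → Matrix J J ℂ)
    (f : Map (CP I) (Th n J)) : Prop :=
  IsPair (fun x : CPSet I => P x.1) (fun _ _ => 0) f

variable (u : Hm R.ob K.ob) (o : Orient R) (p : ℕ)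

/-- The equation `x ^ (n + 1) = w [p](x)` on the projective space of `ℂ^I`: `e` is the zero section
of `n + 1` copies of the tautological line bundle, and `t` is the one of its `p`-th tensor
power. -/
def PEq (w : K.co n Pn) (I) [Fintype I] : Prop :=
  ∀ e t (q : Map (Pn.prod (CP I)) (CP I)),
    IsSec (fun x (i j : Fin (n + 1) × I) => if i.1 = j.1 then x i.2 j.2 else 0) e →
    IsSec (fun x (i j : Fin p → I) => ∏ k, x (i k) (j k)) t →
    (∀ x, q.toFun (.some ((), x)) = .some x) →
    Cross w (pull t (fwd u (o.th 1 _))) (pull q (pull e (fwd u (o.th (n + 1) _))))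

/-- `u : R ⟶ K` is a map from a ring spectrum `R` with the complex orientation `o`.
The `p`-series of the induced orientation of `K` is `[p](x) = v x ^ (n + 1)` modulo `x ^ (n + 2)`
with an invertible `v ∈ π_{2n} K`; here `w ∈ K^{2n}(pt)` is the inverse of `v`. -/
def PSer (n : ℕ) : Prop :=
  ∃ (v : Hm (T.es n) K.ob) (w : K.co n Pn),
    cm T.et (cm w (cm (tm (idt _) v) K.mu)) = K.eta ∧ PEq u o p w (Fin (n + 2))

/-- `K` is a Morava `K`-theory of height `n` at the prime `p`. -/
def Morava (n : ℕ) (K : Rg T) : Prop :=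
  if n = 0 then Rat0 K else PerField K p (2 * (p ^ n - 1)) ∧
    ∃ (R : Rg T) (u : Hm R.ob K.ob) (o : Orient R),
      IsCommMonObj R.ob ∧ IsMonHom u ∧ PSer u o p (p ^ n - 1)

/-- `C` is `p`-local: the integers prime to `p` act invertibly. -/
def PLoc (C : T.Sp) : Prop := ∀ m : ℕ, m.Coprime p → IsIso (zm m (idt C))

/-- `f : A ⟶ B` is the `p`-localisation of `A`. -/
def IsLoca (f : Hm A B) : Prop :=
  PLoc p B ∧ ∀ C, PLoc p C → Function.Bijective fun g : Hm B C => cm f g

/-- functors from finite `p`-local genuine `G`-spectra to spectra -/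
abbrev SM.Fn (T : SM) (G) [Group G] [Finite G] (p : ℕ) : Type 1 := FinSp G p ⥤ T.Sp

variable {p} {G : Type} [Group G] [Finite G] (H : Subgroup G) (F F' : T.Fn G p)

/-- the value on `(X, k)` -/
abbrev vo (a : Ob G) : T.Sp := F.obj ((toFin G p).obj a)

/-- the value on a `G`-map -/
abbrev vm {a b : Ob G} (f : GMap a.sp b.sp) (h : b.k = a.k) : Hm (vo F a) (vo F b) :=
  F.map ((toFin G p).map (one (.map f h)))

/-- the fixed points -/
abbrev fx (a : Ob G) : Space := a.sp.fix H

/-- Naturally in `X`, the spectrum `F (X, k) ∧ E k` is the `p`-localisation of `Σ^∞ (X^H)⁺`. -/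
def Fixd (E : ℕ → T.Sp) : Prop :=
  ∃ θ : ∀ a k, a.k = k → Hm (T.sus (fx H a)) (tn (vo F a) (E k)),
    (∀ a k h, IsLoca p (θ a k h)) ∧ ∀ a b k h h' (f : GMap a.sp b.sp) (g : Map (fx H a) (fx H b)),
      IsRes H f.fn g.toFun →
      cm (T.sm g) (θ b k h') = cm (θ a k h) (tm (vm F f (h'.trans h.symm)) (idt _))

/-- `F` is a geometric fixed point functor `Φ^H`: naturally in `X`, the spectrum
`F (X, k) ∧ S^(k d)` is the `p`-localisation of `Σ^∞ (X^H)⁺`, where `d = [G : H] + 1` is the
dimension of `V^H`. -/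
def GeomFix : Prop := Fixd H F fun k => T.sus (Rn (k * (H.index + 1)))

/-- `K_* (F X) = 0` -/
def Acy (K : Rg T) (X : FinSp G p) : Prop := Nul (idt (tn K.ob (F.obj X)))

/-- `K(n+r)_* (F X) = 0` implies `K(n)_* (F' X) = 0` for all `X`. -/
def Force (K : ℕ → Rg T) (n r : ℕ) : Prop := ∀ X, Acy F (K (n + r)) X → Acy F' (K n) X

/-- The chromatic fixed point loss. -/
def los (K : ℕ → Rg T) (n : ℕ) : ℕ := sInf {r | Force F F' K n r}

end Vale.Agent.P241L
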