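import Vale.Agent.P241CL.Gen
import Vale.Agent.P241CL.Conv
import Vale.Agent.P251CX.Top

/-!
# P241: the chromatic Smith problem in the stable homotopy category
-/

open CategoryTheory MonoidalCategory Limits OnePoint
open Functor.LaxMonoidal Functor.OplaxMonoidal Functor.Monoidal

noncomputable section

namespace Vale.Agent.P241L

open Vale.Agent.P251 Vale.Agent.P251.H Vale.Agent.P251.H.StabInput Vale.Agent.P251CM
  Vale.Agent.P251CR Vale.Agent.P251CE Vale.Agent.P251CX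
open Vale.Agent.P251.St (Space FC toLC toHom Pn)

section dic

variable {X Y Z : P251C.OSp} {A : Space} {n : ℕ}

/-- morphisms -/
def mw (g : X ⟶ Y) : Mor (nw X) (nw Y) :=
  ⟨fun n => g.app n, fun n => ⟨(g.app n).continuous, g.pt n, fun m e x => g.nat m n e x⟩⟩

/-- bimorphisms -/
def bw (b : P251C.Bim X Y Z) : Bim (nw X) (nw Y) (nw Z) where
  ev := b.ev
  cont m n := continuous_from_compactlyGenerated _ fun S g =>
    b.cont m n S ⟨fun s => (g s).1, g.continuous.fst⟩ ⟨fun s => (g s).2, g.continuous.snd⟩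
  bp_left := b.pt_left
  bp_right := b.pt_right
  nat := b.nat

/-- based maps -/
def pw (u : P251C.Pm A X n) : Pm A (nw X) n := ⟨u.1, u.1.continuous, u.2⟩

theorem piIso_mw (g : X ⟶ Y) : piIso _ _ (mw g) ↔ P251C.piIso g := by
  obtain ⟨X, rfl⟩ := o_surj X
  obtain ⟨Y, rfl⟩ := o_surj Y
  exact piIso_iff (mn g)

theorem isUniv_bw (b : P251C.Bim X Y Z) (h : P251C.IsUniv b) : IsUniv (bw b) := by
  obtain ⟨X, rfl⟩ := o_surj X
  obtain ⟨Y, rfl⟩ := o_surj Y
  obtain ⟨Z, rfl⟩ := o_surj Z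
  exact (isUniv_iff (bn b)).2 h

theorem isFlat_nw (h : P251C.IsFlat Y) : IsFlat (nw Y) := by
  obtain ⟨Y, rfl⟩ := o_surj Y
  exact (isFlat_iff Y).2 h

theorem isFree_pw (u : P251C.Pm A X 0) (h : P251C.IsFree u) : IsFree (pw u) := by
  obtain ⟨X, rfl⟩ := o_surj X
  exact (isFree_iff (pn u)).2 h

theorem heq_of_act {p q : ℕ} (h : p = q) (e : P251C.Emb p q)
    (he : ∀ s, P251C.ap e s = s ∘ Fin.cast h.symm) {x : X.sp p} {y : X.sp q}
    (hxy : X.act (.some e) x = y) : HEq x y := by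
  subst h
  exact heq_of_eq ((X.act_id p e he x).symm.trans hxy)

theorem heq_assoc {l m n : ℕ} {x : X.sp (l + m + n)} {y : X.sp (l + (m + n))}
    (h : ∀ e : P251C.Emb (l + m + n) (l + (m + n)), (∀ r s t,
      P251C.ap e (Fin.append (Fin.append r s) t) = Fin.append r (Fin.append s t)) →
      X.act (.some e) x = y) : HEq x y := by
  obtain ⟨e, he⟩ := ex_assoc l m n
  refine heq_of_act (Nat.add_assoc l m n) e (fun v => ?_) (h e he)
  obtain ⟨w, t, rfl⟩ := P251CX.ex_append v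
  obtain ⟨r, s, rfl⟩ := P251CX.ex_append w
  rw [he, Fin.append_assoc]
  rfl

end dic

theorem mor_ext {X Y : OSp} {f g : Mor X Y} (h : ∀ n x, f.app n x = g.app n x) : f = g := by
  cases f
  cases g
  congr
  exact funext fun n => funext (h n)

variable {T : SM} (I : IsSH T)

namespace IsSH

theorem mu_post {X Y Z Z' : OSp} (b : Bim X Y Z) (b' : Bim X Y Z') (h : Mor Z Z')
    (H : Sq b b' (idm X) (idm Y) h) : I.mu b ≫ I.l h = I.mu b' := by
  have := I.mu_nat _ _ _ _ _ _ b b' _ _ h H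
  rw [I.l_id, I.l_id] at this
  exact this.trans ((congrArg (· ≫ _) (id_tensorHom_id _ _)).trans (Category.id_comp _))

theorem isIso_l {X Y : OSp} (f : Mor X Y) (g : Mor Y X) (h : cmp f g = idm X)
    (h' : cmp g f = idm Y) : IsIso (I.l f) :=
  ⟨I.l g, (I.l_comp f g).symm.trans (h ▸ I.l_id X), (I.l_comp g f).symm.trans (h' ▸ I.l_id Y)⟩

theorem isIso_mu {X Y Z : OSp} (b : Bim X Y Z) (hb : IsUniv b) (hY : IsFlat Y) :
    IsIso (I.mu b) := by
  obtain ⟨Z', c, hc, h⟩ := I.mu_iso X Y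
  have := h hY
  obtain ⟨f, hf, -⟩ := hc Z b
  obtain ⟨g, hg, -⟩ := hb Z' c
  have := I.isIso_l f g
    ((hc Z' c).unique (fun m n x y => (congrArg (g.app _) (hf m n x y)).trans (hg m n x y))
      fun _ _ _ _ => rfl)
    ((hb Z b).unique (fun m n x y => (congrArg (f.app _) (hg m n x y)).trans (hf m n x y))
      fun _ _ _ _ => rfl)
  rw [← I.mu_post c b f hf]
  infer_instance

theorem isIso_io {A : Space} {X : OSp} (u : Pm A X 0) (hA : FC A) (hu : IsFree u) :
    IsIso (I.io u) := by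
  obtain ⟨X', v, hv, -, h⟩ := I.io_iso A hA
  obtain ⟨f, hf, -⟩ := hv X u
  obtain ⟨g, hg, -⟩ := hu X' v
  have := I.isIso_l f g
    ((hv X' v).unique (fun x => (congrArg (g.app _) (hf x)).trans (hg x)) fun _ => rfl)
    ((hu X u).unique (fun x => (congrArg (f.app _) (hg x)).trans (hf x)) fun _ => rfl)
  let a : St.Map A A := ⟨id, continuous_id, rfl⟩
  have h1 : T.sm a ≫ I.io u = I.io v ≫ I.l f :=
    I.io_nat _ _ _ _ v u a f hA hA fun x => (hf x).symm
  have h2 : T.sm a ≫ I.io v = I.io v ≫ I.l (idm _) :=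
    I.io_nat _ _ _ _ v v a _ hA hA fun x => rfl
  rw [I.l_id, Category.comp_id] at h2
  have h3 : T.sm a = 𝟙 _ := (cancel_mono (I.io v)).1 (h2.trans (Category.id_comp _).symm)
  rw [h3, Category.id_comp] at h1
  rw [h1]
  infer_instance

/-- the localization functor -/
def Lx : OSp ⥤ T.Sp := ⟨I.L, I.l, I.l_id, I.l_comp⟩

instance : I.Lx.IsLocalization piIso := I.loc

variable (R : Rfl P251CA.CF P251C.OSp) (d : QD R.q)

/-- the localization functor -/
def LM : RM R ⥤ T.Sp where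
  obj X := I.L (nw (ob R X))
  map f := I.l (mw (hm f))
  map_id _ := I.l_id _
  map_comp f g := I.l_comp (mw (hm f)) (mw (hm g))

/-- the comparison functor -/
def FM : OSp ⥤ RM R := F

instance : (FM R).IsEquivalence := inferInstanceAs F.IsEquivalence

include d in
theorem loc_LM : (I.LM R).IsLocalization (WW (RM R)) :=
  Functor.IsLocalization.of_equivalence_source I.Lx piIso (I.LM R) (WW (RM R))
    (FM R).asEquivalence
    (fun _ _ f hf => MorphismProperty.le_isoClosure _ _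
      ((hm_pi d ((FM R).map f)).1 ((piIso_iff f).1 hf)))
    (fun _ _ f hf => Localization.inverts I.Lx piIso (mw (hm f))
      ((piIso_mw _).2 ((hm_pi d f).2 hf))) (Iso.refl _)

variable {R}

/-- the lax monoidal structure -/
def muM (X Y : RM R) : (I.LM R).obj X ⊗ (I.LM R).obj Y ⟶ (I.LM R).obj (X ⊗ Y) :=
  I.mu (bw (bb d (𝟙 (X ⊗ Y))))

theorem muM_map {X Y Z : RM R} (t : X ⊗ Y ⟶ Z) :
    I.muM d X Y ≫ (I.LM R).map t = I.mu (bw (bb d t)) :=
  I.mu_post _ _ _ (bb_nat d (𝟙 _) t (𝟙 X) (𝟙 Y) t (by rw [id_tensorHom_id]))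

/-- the generic form -/
def gen : GenL (RM R) T where
  L := I.LM R
  loc := I.loc_LM R d
  mu := I.muM d
  io K := I.io (pw (pp d (𝟙 ((J (RM R)).obj (toLC K)))))
  mu_iso X Y h := I.isIso_mu _ (isUniv_bw _ (bb_univ d _)) (isFlat_nw (ob_flat d h))
  mu_nat f g := I.mu_nat _ _ _ _ _ _ _ _ (mw (hm f)) (mw (hm g)) (mw (hm (f ⊗ₘ g)))
    (bb_nat d (𝟙 _) (𝟙 _) f g (f ⊗ₘ g) (by rw [Category.id_comp, Category.comp_id]))
  mu_assoc X Y Z := by
    have h := I.mu_assoc _ _ _ _ _ _ (bw (bb d (𝟙 (X ⊗ Y)))) (bw (bb d (α_ X Y Z).hom))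
      (bw (bb d (𝟙 (Y ⊗ Z)))) (bw (bb d (𝟙 (X ⊗ Y ⊗ Z)))) fun k m n x y z =>
        heq_assoc fun e he => bb_assoc d _ _ _ _ (by simp) k m n e he x y z
    rw [muM_map]
    simp only [Sqr, cm, tm, idt, asc, tensorHom_id, id_tensorHom, Category.assoc] at h
    exact h
  mu_comm X Y := by
    rw [muM_map]
    exact I.mu_comm _ _ _ (bw (bb d (β_ X Y).hom)) (bw (bb d (𝟙 (Y ⊗ X))))
      (bb_comm d _ _ (Category.comp_id _).symm)
  mu_unit X := by
    have h := I.mu_unit _ _ _ (bw (bb d (𝟙 (X ⊗ (J (RM R)).obj (toLC Pn)))))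
      (pw (pp d (𝟙 ((J (RM R)).obj (toLC Pn))))) (mw (hm ((ρ_ X).inv ≫ X ◁ ε (J (RM R)))))
      (bb_unit d _ _ _ (by
        rw [Category.comp_id]
        exact (congrArg (X ◁ ·) (Category.comp_id (ε (J (RM R))))).trans
          (Iso.hom_inv_id_assoc _ _).symm))
    simp only [Sqr, cm, tm, idt, swp, lu, id_tensorHom, braiding_leftUnitor] at h
    exact h
  io_iso h := I.isIso_io _ h (isFree_pw _ (pp_free d _))
  io_nat a h h' := I.io_nat _ _ _ _ _ _ a (mw (hm ((J (RM R)).map (toHom a)))) h h'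
    (pp_nat d _ _ a _ (by rw [Category.id_comp, Category.comp_id]))
  io_mul {K K'} h h' := by
    rw [muM_map]
    exact I.io_mul _ _ _ _ _ _ _ _ (bw (bb d (μ (J (RM R)) (toLC K) (toLC K')))) h h'
      (pp_mul d _ _ _ _ (by
        rw [id_tensorHom_id]
        exact (Category.comp_id _).trans (Category.id_comp _).symm))

end IsSH

theorem concl (T : SM) (I : IsSH T) : Concl T := by
  obtain ⟨T1, S, rfl⟩ := (I.gen (R := P251CV.R) qd).exists_heavy
  exact concl_fg S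

theorem exists_isSH : ∃ T, Nonempty (IsSH T) := by
  obtain ⟨T, S, ⟨I⟩⟩ := P251CX.exists_isSH
  exact ⟨_, ⟨isSH_fg I⟩⟩

end Vale.Agent.P241L
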