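import Vale.Agent.P251.St.OfFunctor
import Mathlib.CategoryTheory.Triangulated.Functor

/-!
# Transport of tensor triangulated structures along braided monoidal functors
-/

open CategoryTheory MonoidalCategory Limits Pretriangulated
open Functor.LaxMonoidal Functor.OplaxMonoidal Functor.Monoidal

set_option linter.unusedSectionVars false

noncomputable section

namespace Vale.Agent.P241L

open P251.T P251.St

section pull

variable {C D : Type 1} [Category.{0} C] [Category.{0} D] [Preadditive C] [Preadditive D]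
  [HasZeroObject C] [HasZeroObject D] [HasShift C ℤ] [HasShift D ℤ]
  [∀ n : ℤ, (shiftFunctor C n).Additive] [∀ n : ℤ, (shiftFunctor D n).Additive]
  [Pretriangulated C] [Pretriangulated D] [MonoidalCategory C] [SymmetricCategory C]
  [MonoidalCategory D] [SymmetricCategory D] [TensorTriangulated C]
  (J : D ⥤ C) [J.Braided] [J.Full] [J.Faithful] [J.Additive] [J.CommShift ℤ] [J.IsTriangulated]

/-- the commutation with the shift -/
def cS (Y : D) : J.obj (Y⟦(1 : ℤ)⟧) ≅ (J.obj Y)⟦(1 : ℤ)⟧ := (J.commShiftIso (1 : ℤ)).app Y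

/-- the circle -/
def sS : J.obj ((𝟙_ D)⟦(1 : ℤ)⟧) ≅ (𝟙_ C)⟦(1 : ℤ)⟧ :=
  cS J _ ≪≫ (shiftFunctor C (1 : ℤ)).mapIso (εIso J).symm

/-- the tensor product with the circle -/
def eS (Y : D) : Y ⊗ (𝟙_ D)⟦(1 : ℤ)⟧ ≅ Y⟦(1 : ℤ)⟧ :=
  J.preimageIso ((μIso J Y _).symm ≪≫ whiskerLeftIso (J.obj Y) (sS J) ≪≫
    TensorTriangulated.e (J.obj Y) ≪≫ (cS J Y).symm)

@[reassoc]
theorem cS_nat {X Y : D} (f : X ⟶ Y) :
    J.map (f⟦(1 : ℤ)⟧') ≫ (cS J Y).hom = (cS J X).hom ≫ (J.map f)⟦(1 : ℤ)⟧' :=
  (J.commShiftIso (1 : ℤ)).hom.naturality f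

@[reassoc]
theorem map_eS (Y : D) : J.map (eS J Y).hom ≫ (cS J Y).hom =
    δ J Y _ ≫ J.obj Y ◁ (sS J).hom ≫ (TensorTriangulated.e (J.obj Y)).hom := by
  simp [eS]

@[reassoc]
theorem map_eS_inv (Y : D) : J.map (eS J Y).inv ≫ δ J Y _ ≫ J.obj Y ◁ (sS J).hom =
    (cS J Y).hom ≫ (TensorTriangulated.e (J.obj Y)).inv := by
  rw [Iso.eq_comp_inv, Category.assoc, Category.assoc, ← map_eS, ← J.map_comp_assoc,
    Iso.inv_hom_id, J.map_id, Category.id_comp]

/-- the tensor triangulated structure of the source -/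
@[reducible]
def pullTT : TensorTriangulated D where
  toMonoidalPreadditive := monoidalPreadditive_of_faithful J
  e := eS J
  e_naturality {Y Z} f := by
    apply J.map_injective
    rw [← cancel_mono (cS J Z).hom, J.map_comp, J.map_comp, Category.assoc, Category.assoc, map_eS,
      cS_nat, map_eS_assoc, ← TensorTriangulated.e_naturality, ← δ_natural_left_assoc,
      whisker_exchange_assoc]
  e_unit := by
    apply J.map_injective
    have h := TensorTriangulated.e_naturality (η J)
    rw [TensorTriangulated.e_unit] at h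
    rw [← cancel_mono (cS J _).hom, map_eS, ← cancel_mono ((η J)⟦(1 : ℤ)⟧'), Category.assoc,
      Category.assoc, ← h, whisker_exchange_assoc, leftUnitor_naturality, map_leftUnitor]
    simp only [Category.assoc]
    rfl
  distinguished X Δ hΔ := by
    rw [← J.map_distinguished_iff]
    refine isomorphic_distinguished _
      (TensorTriangulated.distinguished (J.obj X) _ (J.map_distinguished Δ hΔ)) _
      (Triangle.isoMk _ _ (μIso J _ _).symm (μIso J _ _).symm (μIso J _ _).symm ?_ ?_ ?_)
    · exact (δ_natural_right J X Δ.mor₁).symm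
    · exact (δ_natural_right J X Δ.mor₂).symm
    · change (J.map (X ◁ Δ.mor₃ ≫ X ◁ (eS J Δ.obj₁).inv ≫ (α_ _ _ _).inv ≫ (eS J _).hom) ≫
          (cS J _).hom) ≫ (δ J X Δ.obj₁)⟦(1 : ℤ)⟧' =
        δ J X Δ.obj₃ ≫ J.obj X ◁ (J.map Δ.mor₃ ≫ (cS J _).hom) ≫
          J.obj X ◁ (TensorTriangulated.e (J.obj Δ.obj₁)).inv ≫ (α_ _ _ _).inv ≫
            (TensorTriangulated.e (J.obj X ⊗ J.obj Δ.obj₁)).hom
      rw [J.map_comp, J.map_comp, J.map_comp]
      simp only [Category.assoc]
      rw [map_eS_assoc, ← TensorTriangulated.e_naturality, whisker_exchange_assoc,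
        ← Functor.OplaxMonoidal.associativity_inv_assoc, ← δ_natural_right_assoc,
        ← δ_natural_right_assoc, ← MonoidalCategory.whiskerLeft_comp_assoc (J.obj X) (_ ≫ _),
        Category.assoc, ← map_eS_inv]
      simp only [MonoidalCategory.whiskerLeft_comp, Category.assoc,
        associator_inv_naturality_right_assoc]
  sign := by
    apply J.map_injective
    have h := BraidedCategory.braiding_naturality (sS J).hom (sS J).hom
    rw [TensorTriangulated.sign, Preadditive.comp_neg, Category.comp_id] at h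
    have h2 : (β_ (J.obj ((𝟙_ D)⟦(1 : ℤ)⟧)) (J.obj ((𝟙_ D)⟦(1 : ℤ)⟧))).hom = -𝟙 _ := by
      rw [← cancel_mono ((sS J).hom ⊗ₘ (sS J).hom), ← h, Preadditive.neg_comp, Category.id_comp]
    rw [Functor.map_braiding, h2]
    simp

end pull

section susp

variable {T0 T1 : SHCat} (J : T1.C ⥤ T0.C) [J.Braided] [J.Full] [J.Faithful] [J.Additive]
  [J.CommShift ℤ] [J.IsTriangulated]

/-- a comparison of suspension spectrum functors on finite cell spaces -/
structure Cmp (S0 : Susp T0) (S : SuspData T1) where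
  /-- the isomorphisms -/
  φ : ∀ {X}, FC X → (J.obj (S.obj X) ≅ S0.obj X)
  he : ∀ Y : T1.C, (TensorTriangulated.e Y).hom = (eS J Y).hom
  map : ∀ {X Y} (hX : FC X) (hY : FC Y) (f : Map X Y),
    J.map (S.map f) ≫ (φ hY).hom = (φ hX).hom ≫ S0.map f
  mul : ∀ {X Y} (hX : FC X) (hY : FC Y), J.map (S.mul X Y) ≫ (φ (fc_prod hX hY)).hom =
    δ J _ _ ≫ ((φ hX).hom ⊗ₘ (φ hY).hom) ≫ S0.mul X Y
  unit : J.map S.unit ≫ (φ fcPn).hom = η J ≫ S0.unit
  line : J.map S.line ≫ (sS J).hom = (φ fcRr).hom ≫ S0.line

attribute [reassoc] Cmp.map Cmp.mul Cmp.unit Cmp.line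

variable {J} {S0 : Susp T0} {S : SuspData T1} (c : Cmp J S0 S)

theorem iso_of {A B : T1.C} {Z : T0.C} (f : A ⟶ B) (g : J.obj B ⟶ Z) (h : J.obj A ⟶ Z) [IsIso g]
    [IsIso h] (e : J.map f ≫ g = h) : IsIso f := by
  have : IsIso (J.map f ≫ g) := e ▸ inferInstance
  have := IsIso.of_isIso_comp_right (J.map f) g
  exact isIso_of_fully_faithful J f

theorem eq_of {A B : T1.C} {Z : T0.C} {f f' : A ⟶ B} (g : J.obj B ≅ Z)
    (e : J.map f ≫ g.hom = J.map f' ≫ g.hom) : f = f' :=
  J.map_injective ((cancel_mono g.hom).1 e)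

/-- the axioms of a suspension spectrum functor are inherited -/
def Cmp.susp : Susp T1 where
  toSuspData := S
  map_id f hX hf := eq_of (c.φ hX) (by
    rw [c.map hX hX, S0.map_id f hX hf, J.map_id, Category.id_comp, Category.comp_id])
  map_comp f g h hX hY hZ e := eq_of (c.φ hZ) (by
    rw [J.map_comp, Category.assoc, c.map hX hZ, c.map hY hZ, c.map_assoc hX hY,
      S0.map_comp f g h hX hY hZ e])
  map_homotopic f g hX hY e := eq_of (c.φ hY) (by
    rw [c.map hX hY, c.map hX hY, S0.map_homotopic f g hX hY e])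
  isZero hX e := eq_of (c.φ hX) (by
    rw [J.map_id, J.map_zero, Category.id_comp, zero_comp, ← Category.comp_id (c.φ hX).hom]
    exact (congrArg (_ ≫ ·) (S0.isZero hX e)).trans comp_zero)
  unit_isIso := have := S0.unit_isIso; iso_of _ _ _ c.unit
  line_isIso := have := S0.line_isIso; iso_of _ _ _ c.line
  mul_isIso hX hY := have := S0.mul_isIso hX hY; iso_of _ _ _ (c.mul hX hY)
  mul_natural f g h hX hX' hY hY' e := eq_of (c.φ (fc_prod hX' hY')) (by
    have := S0.mul_natural f g h hX hX' hY hY' e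
    simp only [SHCat.comp, SHCat.tenHom] at this
    rw [J.map_comp, J.map_comp, Category.assoc, Category.assoc, c.map (fc_prod hX hY),
      c.mul_assoc hX hY, this, c.mul hX' hY', ← δ_natural_assoc, tensorHom_comp_tensorHom_assoc,
      tensorHom_comp_tensorHom_assoc, c.map hX, c.map hY])
  mul_assoc {X Y Z} a hX hY hZ e := eq_of (c.φ (fc_prod hX (fc_prod hY hZ))) (by
    have := S0.mul_assoc a hX hY hZ e
    simp only [SHCat.comp, SHCat.tenHom, SHCat.ident, SHCat.assoc, tensorHom_id,
      id_tensorHom] at this ⊢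
    simp only [J.map_comp, Category.assoc]
    rw [c.map (fc_prod (fc_prod hX hY) hZ), c.mul_assoc (fc_prod hX hY) hZ, c.mul hX (fc_prod hY hZ),
      ← δ_natural_left_assoc, ← δ_natural_right_assoc, tensorHom_def, tensorHom_def',
      Category.assoc, Category.assoc, ← comp_whiskerRight_assoc,
      ← MonoidalCategory.whiskerLeft_comp_assoc, c.mul hX hY, c.mul hY hZ, comp_whiskerRight,
      comp_whiskerRight, Category.assoc, Category.assoc, ← whisker_exchange_assoc (S0.mul X Y), this,
      MonoidalCategory.whiskerLeft_comp, MonoidalCategory.whiskerLeft_comp, Category.assoc,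
      Category.assoc, whisker_exchange_assoc (c.φ hX).hom (S0.mul Y Z),
      ← Functor.OplaxMonoidal.associativity_assoc, ← tensorHom_def_assoc, ← tensorHom_def'_assoc,
      associator_naturality_assoc])
  mul_unit {X} a hX e := eq_of (c.φ hX) (by
    have := S0.mul_unit a hX e
    simp only [SHCat.comp, SHCat.tenHom, SHCat.ident, SHCat.leftUnit, tensorHom_id] at this ⊢
    simp only [J.map_comp, Category.assoc]
    rw [c.map (fc_prod fcPn hX), c.mul_assoc fcPn hX, ← δ_natural_left_assoc, tensorHom_def,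
      Category.assoc, ← comp_whiskerRight_assoc, c.unit, comp_whiskerRight, Category.assoc,
      ← whisker_exchange_assoc S0.unit, this, leftUnitor_naturality, map_leftUnitor]
    simp only [Category.assoc])
  mul_comm {X Y} a hX hY e := eq_of (c.φ (fc_prod hY hX)) (by
    have := S0.mul_comm a hX hY e
    simp only [SHCat.comp, SHCat.symm] at this ⊢
    simp only [J.map_comp, Category.assoc]
    rw [c.map (fc_prod hX hY), c.mul_assoc hX hY, this, c.mul hY hX, Functor.map_braiding,
      BraidedCategory.braiding_naturality_assoc]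
    simp only [Category.assoc, μ_δ_assoc])
  cone {X Y C} f j k d t hX hY hC h e := by
    have h0 := S0.cone f j k d
      ((c.φ hC).inv ≫ J.map t ≫ δ J _ _ ≫ ((c.φ hX).hom ⊗ₘ (c.φ fcRr).hom)) hX hY hC h (by
        simp only [SHCat.comp, Category.assoc] at e ⊢
        rw [← c.mul hX fcRr, ← J.map_comp_assoc, e, c.map hC, Iso.inv_hom_id_assoc])
    refine (J.map_distinguished_iff _).1 (isomorphic_distinguished _ h0 _
      (Triangle.isoMk _ _ (c.φ hX) (c.φ hY) (c.φ hC) (c.map hX hY f) (c.map hY hC j) ?_))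
    change (J.map (t ≫ (𝟙 _ ⊗ₘ S.line) ≫ (TensorTriangulated.e (S.obj X)).hom) ≫ (cS J _).hom) ≫
        (c.φ hX).hom⟦(1 : ℤ)⟧' = (c.φ hC).hom ≫ ((c.φ hC).inv ≫ J.map t ≫ δ J _ _ ≫
          ((c.φ hX).hom ⊗ₘ (c.φ fcRr).hom)) ≫ (𝟙 _ ⊗ₘ S0.line) ≫
            (TensorTriangulated.e (S0.obj X)).hom
    simp only [J.map_comp, Category.assoc, Iso.hom_inv_id_assoc, id_tensorHom]
    rw [c.he, map_eS_assoc, ← TensorTriangulated.e_naturality, ← δ_natural_right_assoc,
      ← MonoidalCategory.whiskerLeft_comp_assoc, c.line, MonoidalCategory.whiskerLeft_comp_assoc,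
      tensorHom_def', Category.assoc, whisker_exchange_assoc (c.φ hX).hom S0.line]
  full {X Y} g hX hY := by
    obtain ⟨n, h, e⟩ := S0.full ((c.φ hX).inv ≫ J.map g ≫ (c.φ hY).hom) hX hY
    refine ⟨n, h, eq_of (c.φ (fc_prod hY (.sph n))) ?_⟩
    simp only [SHCat.comp, SHCat.tenHom, SHCat.ident] at e ⊢
    simp only [J.map_comp, Category.assoc]
    rw [c.map (fc_prod hX (.sph n)), c.mul_assoc hX (.sph n), e, c.mul hY (.sph n),
      ← δ_natural_assoc, tensorHom_comp_tensorHom_assoc, tensorHom_comp_tensorHom_assoc,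
      Iso.hom_inv_id_assoc, J.map_id, Category.id_comp, Category.comp_id]
  faithful f g hX hY e := S0.faithful f g hX hY (by
    rw [← cancel_epi (c.φ hX).hom, ← c.map hX hY, ← c.map hX hY, e])

end susp

section alt

/-- another symmetric monoidal structure on the category of a stable homotopy category -/
structure Alt (T : SHCat) where
  /-- the monoidal structure -/
  mn : MonoidalCategory T.C
  /-- the symmetry -/
  sy : @SymmetricCategory T.C _ mn

variable {T : SHCat} (a : Alt T)

/-- the category with the other monoidal structure -/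
def Alt.C (_ : Alt T) : Type 1 := T.C

instance : Category.{0} a.C := T.cat
instance : Preadditive a.C := T.preadditive
instance : HasZeroObject a.C := T.zero
instance : HasShift a.C ℤ := T.shift
instance (n : ℤ) : (shiftFunctor a.C n).Additive := T.additive n
instance : Pretriangulated a.C := T.pretriangulated
instance : IsTriangulated a.C := T.triangulated
instance : HasCoproducts.{0} a.C := T.coproducts
instance : HasProducts.{0} a.C := T.products
instance : MonoidalCategory a.C := a.mn
instance : SymmetricCategory a.C := a.sy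

/-- the identity functor -/
def Alt.J : a.C ⥤ T.C := 𝟭 T.C

instance : a.J.IsEquivalence := inferInstanceAs (𝟭 T.C).IsEquivalence
instance : a.J.Additive := inferInstanceAs (𝟭 T.C).Additive
instance : a.J.CommShift ℤ := inferInstanceAs ((𝟭 T.C).CommShift ℤ)
instance : a.J.IsTriangulated := inferInstanceAs (𝟭 T.C).IsTriangulated

variable [a.J.Braided]

instance : TensorTriangulated a.C := pullTT a.J

instance : MonoidalClosed a.C := MonoidalClosed.ofEquiv a.J a.J.asEquivalence.toAdjunction

instance : StableCat a.C where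
  compact n I X f := by
    let e := (shiftFunctor T.C n).mapIso (εIso a.J)
    obtain ⟨s, g, hg⟩ := StableCat.compact (T := T.C) n X (e.hom ≫ f)
    exact ⟨s, e.inv ≫ g, (Category.assoc _ _ _).trans
      ((congrArg (e.inv ≫ ·) hg).trans (e.inv_hom_id_assoc _))⟩
  generator X h := StableCat.generator (T := T.C) (a.J.obj X) fun n f => by
    let e := (shiftFunctor T.C n).mapIso (εIso a.J)
    rw [← cancel_epi e.inv, comp_zero]
    exact h n _

/-- the stable homotopy category with the other monoidal structure -/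
def Alt.sh : SHCat := { C := a.C }

/-- the identity functor -/
def Alt.J' : a.sh.C ⥤ T.C := a.J

instance : a.J'.Braided := inferInstanceAs a.J.Braided
instance : a.J'.IsEquivalence := inferInstanceAs a.J.IsEquivalence
instance : a.J'.Additive := inferInstanceAs a.J.Additive
instance : a.J'.CommShift ℤ := inferInstanceAs (a.J.CommShift ℤ)
instance : a.J'.IsTriangulated := inferInstanceAs a.J.IsTriangulated

theorem Alt.he (Y : a.sh.C) : (TensorTriangulated.e Y).hom = (eS a.J' Y).hom := rfl

end alt

end Vale.Agent.P241L
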